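import Vale.Agent.P355.H138.TE.ABC.T
import Vale.Agent.P355.H138.TE.ABC.V2
import Vale.Agent.P355.H138.TE.ABC.V1

namespace Vale.Agent.P355.H138.TE.ABC

open Vale.Agent.P355 Vale.Agent.P355.H147 Vale.Agent.P355.H998.E

theorem hP2 : Ch t true 40 49 P1 P2 :=
  Ch.ckG (TT := 2) (rw := 40) tok rfl (by decide +kernel) true 9 40 49 _ _ (by decide +kernel)

theorem hQ2 : Ch t false 40 49 Q1 Q2 :=
  Ch.ckG (TT := 2) (rw := 40) tok rfl (by decide +kernel) false 9 40 49 _ _ (by decide +kernel)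


end Vale.Agent.P355.H138.TE.ABC
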