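import Vale.Agent.P355.H138.TE.ABC.T
import Vale.Agent.P355.H138.TE.ABC.C0
import Vale.Agent.P355.H138.TE.ABC.C1
import Vale.Agent.P355.H138.TE.ABC.C2
import Vale.Agent.P355.H138.TE.ABC.R0
import Vale.Agent.P355.H138.TE.ABC.R1
import Vale.Agent.P355.H138.TE.ABC.R2
import Vale.Agent.P355.H138.TE.ABC.R3
import Vale.Agent.P355.H138.TE.ABC.R4
import Vale.Agent.P355.H138.TE.ABC.R5
import Vale.Agent.P355.H138.TE.ABC.R6
import Vale.Agent.P355.H138.TE.ABC.R7
import Vale.Agent.P355.H138.TE.ABC.R8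
import Vale.Agent.P355.H138.TE.ABC.R9
import Vale.Agent.P355.H138.TE.ABC.R10
import Vale.Agent.P355.H138.TE.ABC.R11
import Vale.Agent.P355.H138.TE.ABC.R12
import Vale.Agent.P355.H138.TE.ABC.R13

namespace Vale.Agent.P355.H138.TE.ABC

open Vale.Agent.P355 Vale.Agent.P355.H147 Vale.Agent.P355.H998.E

theorem hR : CX 4 0 0 D cls mv 0 100 := (cm0).trans ((cm1).trans (cm2))

theorem sok {m : ℕ} {B : Fin m → M6} (hB : IsMUBs B) :
    SOk t.n 100 (D.G.act 4 0 0) G.nu ((D.T.ty 4).M B)
      (fun i => (D.XL.getD i pf0).dec 4 0 0) ((6 : ℝ) ^ D.TT) t.R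
      (fun i => cvB B 4 (cls i)) t.BP t.EL :=
  ED.sokX (k := 0) (l := 0) hB (by norm_num) hmv ck hnk hR

theorem hP : Ch t true 0 100 0 P13 := (((((((((((((hP0).trans hP1 (by norm_num) (by norm_num)).trans hP2 (by norm_num) (by norm_num)).trans hP3 (by norm_num) (by norm_num)).trans hP4 (by norm_num) (by norm_num)).trans hP5 (by norm_num) (by norm_num)).trans hP6 (by norm_num) (by norm_num)).trans hP7 (by norm_num) (by norm_num)).trans hP8 (by norm_num) (by norm_num)).trans hP9 (by norm_num) (by norm_num)).trans hP10 (by norm_num) (by norm_num)).trans hP11 (by norm_num) (by norm_num)).trans hP12 (by norm_num) (by norm_num)).trans hP13 (by norm_num) (by norm_num)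

theorem hQ : Ch t false 0 100 0 Q13 := (((((((((((((hQ0).trans hQ1 (by norm_num) (by norm_num)).trans hQ2 (by norm_num) (by norm_num)).trans hQ3 (by norm_num) (by norm_num)).trans hQ4 (by norm_num) (by norm_num)).trans hQ5 (by norm_num) (by norm_num)).trans hQ6 (by norm_num) (by norm_num)).trans hQ7 (by norm_num) (by norm_num)).trans hQ8 (by norm_num) (by norm_num)).trans hQ9 (by norm_num) (by norm_num)).trans hQ10 (by norm_num) (by norm_num)).trans hQ11 (by norm_num) (by norm_num)).trans hQ12 (by norm_num) (by norm_num)).trans hQ13 (by norm_num) (by norm_num)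

end Vale.Agent.P355.H138.TE.ABC
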